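import Crest.Agent.R259.Hahn

/-! Row 259 (Nagata): the monomial model has no section with the required multiplicities. -/

set_option autoImplicit false

namespace Crest.Agent.R259

open Polynomial

/-- evaluation at `u` -/
noncomputable def ev (u : ℂˣ) : LP →+* ℂ := LaurentPolynomial.eval₂ (RingHom.id ℂ) u

/-- evaluation at `(u, 1)` -/
noncomputable def evS (u : ℂˣ) : LP[X] →+* ℂ := eval₂RingHom (ev u) 1

lemma ev_toLaurent (u : ℂˣ) (p : ℂ[X]) : ev u (toLaurent p) = p.eval (u : ℂ) :=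
  LaurentPolynomial.eval₂_toLaurent _ _ _

lemma ev_T_ne (u : ℂˣ) (n : ℤ) : ev u (LaurentPolynomial.T n) ≠ 0 :=
  ((LaurentPolynomial.isUnit_T n).map (ev u)).ne_zero

lemma dvd_of_ev {u : ℂˣ} {f : LP} (h : ev u f = 0) : toLaurent (X - C (u : ℂ)) ∣ f := by
  obtain ⟨n, f', hf⟩ := f.exists_T_pow
  have : X - C (u : ℂ) ∣ f' := dvd_iff_isRoot.2 (by rw [IsRoot, ← ev_toLaurent, hf, map_mul, h, zero_mul])
  exact (LaurentPolynomial.isUnit_T n).dvd_mul_right.1 (hf ▸ map_dvd toLaurent this)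

lemma od_mul {R : Type*} [CommRing R] {π : R} {a b : ℕ} {p q : R[X]}
    (hp : ∀ j, π ^ (a - j) ∣ p.coeff j) (hq : ∀ j, π ^ (b - j) ∣ q.coeff j) (j : ℕ) :
    π ^ (a + b - j) ∣ (p * q).coeff j := by
  rw [coeff_mul]
  refine Finset.dvd_sum fun x hx => ?_
  have := Finset.HasAntidiagonal.mem_antidiagonal.1 hx
  exact (pow_dvd_pow π (by omega : a + b - j ≤ a - x.1 + (b - x.2))).trans
    (pow_add π _ _ ▸ mul_dvd_mul (hp _) (hq _))

lemma od_of_mem {u : ℂˣ} {m : ℕ} {p : LP[X]} (hp : p ∈ RingHom.ker (evS u) ^ m) (j : ℕ) :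
    toLaurent (X - C (u : ℂ)) ^ (m - j) ∣ (taylor 1 p).coeff j := by
  induction hp using Submodule.pow_induction_on_left' generalizing j with
  | algebraMap r => simp
  | add x y i _ _ hx hy => simpa using dvd_add (hx j) (hy j)
  | mem_mul x hx i y _ hy =>
    rw [taylor_mul, Nat.succ_eq_add_one, add_comm i]
    refine od_mul (fun k => ?_) hy j
    rcases k with _ | k
    · rw [taylor_coeff_zero, Nat.sub_zero, pow_one]
      refine dvd_of_ev ?_
      rw [← eval₂_at_one]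
      exact hx
    · simp

lemma gap {q h : ℂ[X]} (hq : q.coeff 0 ≠ 0) (hh : h ≠ 0) :
    (q * h).natTrailingDegree + q.natDegree ≤ (q * h).natDegree := by
  have hq0 : q ≠ 0 := fun h0 => hq (by simp [h0])
  rw [natTrailingDegree_mul hq0 hh, natDegree_mul hq0 hh, natTrailingDegree_eq_zero.2 (Or.inr hq)]
  have := natTrailingDegree_le_natDegree h
  omega

/-- the column of `u^n` -/
noncomputable def lam (n : ℤ) (p : LP[X]) : ℂ[X] := p.sum fun b a => monomial b (a.coeff n)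

lemma lam_coeff (n : ℤ) (p : LP[X]) (b : ℕ) : (lam n p).coeff b = (p.coeff b).coeff n := by
  rw [lam, coeff_sum, sum_def, Finset.sum_eq_single b (fun c _ hc => by simp [coeff_monomial, hc])
    (fun h => by simp [notMem_support_iff.1 h])]
  simp

lemma lam_pow (n : ℤ) (p : LP[X]) (j : ℕ) :
    lam n ((X - C 1) ^ j * p) = (X - C 1) ^ j * lam n p := by
  induction j with
  | zero => simp
  | succ j ih =>
    rw [pow_succ', pow_succ', mul_assoc, mul_assoc, ← ih]
    ext b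
    rcases b with _ | b <;> simp [lam_coeff, sub_mul, coeff_X_mul]

lemma dvd_poly {u : ℂˣ} {E F : LP} (hE : ev u E ≠ 0) {k s : ℕ} {f : ℂ[X]}
    (hf : toLaurent f = F * LaurentPolynomial.T s) (h : toLaurent (X - C (u : ℂ)) ^ k ∣ E * F) :
    (X - C (u : ℂ)) ^ k ∣ f := by
  obtain ⟨g, hg⟩ := h
  obtain ⟨s₁, E', hE'⟩ := E.exists_T_pow
  obtain ⟨s₂, g', hg'⟩ := g.exists_T_pow
  have : E' * X ^ s₂ * f = (X - C (u : ℂ)) ^ k * (g' * X ^ (s + s₁)) := by
    apply toLaurent_injective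
    simp only [map_mul, hE', hg', hf, toLaurent_X_pow, map_pow toLaurent (X - C (u : ℂ)),
      Nat.cast_add, LaurentPolynomial.T_add]
    linear_combination (LaurentPolynomial.T s₁ * LaurentPolynomial.T s₂ * LaurentPolynomial.T s) * hg
  refine (prime_X_sub_C (u : ℂ)).pow_dvd_of_dvd_mul_left k (fun h => ?_) ⟨_, this⟩
  rw [dvd_iff_isRoot, IsRoot, ← ev_toLaurent, map_mul, hE', toLaurent_X_pow, map_mul, map_mul] at h
  exact mul_ne_zero (mul_ne_zero hE (ev_T_ne _ _)) (ev_T_ne _ _) h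

lemma arith {d M j n b₁ b₂ : ℤ} (hd : 1 ≤ d) (h3 : 3 * d < M) (hj : 0 ≤ j) (hb : b₁ + j ≤ b₂)
    (hb₁ : 0 ≤ b₁) (h1 : (M - 3 * d) * (d - 3 * b₁) ≤ d * n) (h2 : 3 * b₂ ≤ d)
    (h4 : d * n < M * (d - 3 * b₂) ∨ n = 0 ∧ d = 3 * b₂) :
    d * n < M * (d - 3 * j) ∧ j * M * (M - 3 * d) ≤ d ^ 2 * n := by
  rcases h4 with h4 | ⟨rfl, h4⟩
  · have a1 : (M - 3 * d) * (d - 3 * b₂ + 3 * j) ≤ d * n :=
      (mul_le_mul_of_nonneg_left (by omega) (by omega)).trans h1
    have a2 : j * (M - 3 * d) ≤ d * (d - 3 * b₂) := by nlinarith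
    have a3 := mul_le_mul_of_nonneg_left a1 (by omega : 0 ≤ d)
    have a4 := mul_le_mul_of_nonneg_left a2 (by omega : 0 ≤ M - 3 * d)
    exact ⟨h4.trans_le (mul_le_mul_of_nonneg_left (by omega) (by omega)), by nlinarith⟩
  · have : d - 3 * b₁ ≤ 0 := by nlinarith
    obtain rfl : j = 0 := by omega
    constructor <;> nlinarith

theorem comb {r d : ℕ} (m : Fin r → ℕ) (u : Fin r → ℂˣ) (hu : Function.Injective u) (E : LP)
    (hE : ∀ i, ev (u i) E ≠ 0) (hd : 1 ≤ d) {M : ℤ} (hMm : M = ∑ i, (m i : ℤ))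
    (hM : r * (d : ℤ) ^ 2 ≤ M ^ 2) (h3 : 3 * (d : ℤ) < M) (P : LP[X])
    (hP : ∀ (b : ℕ) (n : ℤ), (P.coeff b).coeff n ≠ 0 → 3 * (b : ℤ) ≤ d ∧
      (M - 3 * d) * (d - 3 * b) ≤ d * n ∧ (d * n < M * (d - 3 * b) ∨ n = 0 ∧ (d : ℤ) = 3 * b))
    (hv : ∀ i, C E * P ∈ RingHom.ker (evS (u i)) ^ m i) : P = 0 := by
  by_contra hP0
  obtain ⟨P', hP', hnd⟩ := exists_eq_pow_rootMultiplicity_mul_and_not_dvd P hP0 1
  generalize P.rootMultiplicity 1 = j at hP'
  rw [dvd_iff_isRoot, IsRoot] at hnd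
  have hb : ∀ n, (P'.eval 1).coeff n ≠ 0 →
      d * n < M * (d - 3 * j) ∧ j * M * (M - 3 * d) ≤ (d : ℤ) ^ 2 * n := fun n hn => by
    have h0 : lam n P' ≠ 0 := fun h0 => hn (by
      rw [eval_eq_sum_range, AddMonoidAlgebra.coeff_sum, Finsupp.finsetSum_apply]
      exact Finset.sum_eq_zero fun b _ => by rw [one_pow, mul_one, ← lam_coeff, h0, coeff_zero])
    have h1 := gap (q := (X - C 1) ^ j) (by simp [coeff_zero_eq_eval_zero]) h0
    have h2 : (X - C 1) ^ j * lam n P' ≠ 0 := mul_ne_zero (pow_ne_zero _ (X_sub_C_ne_zero _)) h0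
    rw [natDegree_pow, natDegree_X_sub_C, mul_one] at h1
    rw [← lam_pow, ← hP'] at h1 h2
    have a1 := hP _ n (lam_coeff n P _ ▸
      mem_support_iff.1 (natTrailingDegree_mem_support_of_nonzero h2))
    have a2 := hP _ n (lam_coeff n P _ ▸ mem_support_iff.1 (natDegree_mem_support_of_nonzero h2))
    exact arith (by exact_mod_cast hd) h3 (by positivity) (by exact_mod_cast h1) (by positivity)
      a1.2.1 a2.1 a2.2.2
  obtain ⟨s, f, hf⟩ := (P'.eval 1).exists_T_pow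
  have hf0 : f ≠ 0 := fun h => hnd (by
    rw [h, map_zero, eq_comm, mul_eq_zero] at hf
    exact hf.resolve_right (LaurentPolynomial.isUnit_T _).ne_zero)
  have hs : ∀ k ∈ f.support, (P'.eval 1).coeff (k - s) ≠ 0 := fun k hk => by
    have : (k : ℤ) ∈ (toLaurent f).coeff.support := by
      rw [LaurentPolynomial.support_coeff_toLaurent]; exact Finset.mem_map_of_mem _ hk
    rw [hf, Finsupp.mem_support_iff, LaurentPolynomial.T,
      AddMonoidAlgebra.coeff_mul_single_apply, mul_one] at this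
    rwa [sub_eq_add_neg]
  obtain ⟨h, rfl⟩ : ∏ i, (X - C (u i : ℂ)) ^ (m i - j) ∣ f := by
    refine Finset.prod_dvd_of_coprime (fun a _ b _ hab => ?_) fun i _ => dvd_poly (hE i) hf ?_
    · exact (pairwise_coprime_X_sub_C (Units.val_injective.comp hu) hab).pow
    · have := od_of_mem (hv i) j
      rwa [hP', taylor_mul, taylor_mul, taylor_pow, map_sub (taylor 1), taylor_X, taylor_C, taylor_C,
        add_sub_cancel_right, coeff_C_mul, coeff_X_pow_mul', if_pos le_rfl, Nat.sub_self,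
        taylor_coeff_zero] at this
  have h1 := gap (q := ∏ i, (X - C (u i : ℂ)) ^ (m i - j))
    (by simp [coeff_zero_eq_eval_zero, eval_prod, Finset.prod_eq_zero_iff]) (right_ne_zero_of_mul hf0)
  have a1 := (hb _ (hs _ (natTrailingDegree_mem_support_of_nonzero hf0))).2
  have a2 := (hb _ (hs _ (natDegree_mem_support_of_nonzero hf0))).1
  have h2 : M - r * j ≤ (∏ i, (X - C (u i : ℂ)) ^ (m i - j)).natDegree := by
    rw [natDegree_prod_of_monic _ _ fun i _ => (monic_X_sub_C _).pow _, hMm, Nat.cast_sum,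
      show (r : ℤ) * j = ∑ _i : Fin r, (j : ℤ) by simp, ← Finset.sum_sub_distrib]
    refine Finset.sum_le_sum fun i _ => ?_
    rw [natDegree_pow, natDegree_X_sub_C]
    omega
  generalize (∏ i, (X - C (u i : ℂ)) ^ (m i - j)) = q at h1 h2 a1 a2
  generalize natTrailingDegree (q * h) = n at h1 a1
  generalize natDegree (q * h) = n' at h1 a2
  have h4 : M - r * j ≤ (n' - s) - (n - s) := by omega
  have hd' : (0 : ℤ) < d := by exact_mod_cast hd
  have a3 := mul_lt_mul_of_pos_left a2 hd'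
  have a4 := mul_le_mul_of_nonneg_left h4 (sq_nonneg (d : ℤ))
  have a5 := mul_le_mul_of_nonneg_left hM (Nat.cast_nonneg (α := ℤ) j)
  nlinarith

end Crest.Agent.R259
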