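import Crest.Agent.R259.Theta

/-! Row 259 (Nagata): the cubic relation, and expansion along the cubic. -/

set_option autoImplicit false

namespace Crest.Agent.R259

open MvPolynomial

/-- the coefficient of `u^n` -/
noncomputable def col (n : ℤ) (f : AA) : KK :=
  f.map (Finsupp.applyAddHom n |>.comp AddMonoidAlgebra.coeffAddEquiv.toAddMonoidHom)

lemma col_coeff (n : ℤ) (f : AA) (e : ℤ) : (col n f).coeff e = arr f e n := rfl

lemma col_add (n : ℤ) (f g : AA) : col n (f + g) = col n f + col n g := by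
  ext e; simp [col_coeff, arr_add]

lemma col_mul (n : ℤ) (l : KK) (f : AA) : col n (kk l * f) = l * col n f := by
  ext e
  rw [col_coeff, arr, HahnSeries.coeff_mul_left' (x := kk l) l.isPWO_support
      fun e he h0 => he (by simp [kk, h0]),
    HahnSeries.coeff_mul_right' (y := col n f) f.isPWO_support
      fun e he h0 => he (by simp [col_coeff, arr, h0]),
    AddMonoidAlgebra.coeff_sum, Finsupp.finsetSum_apply]
  refine Finset.sum_congr rfl fun ij _ => ?_
  rw [col_coeff, kk, hmap_coeff, ← LaurentPolynomial.single_eq_C,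
    AddMonoidAlgebra.coeff_single_zero_mul]
  rfl

lemma theta_zero {N c : ℤ} {f : AA} (h : Rel N c 9 f f) (h0 : ∀ e, ∀ n : Fin 9, arr f e n = 0) :
    f = 0 := by
  have : ∀ k : ℤ, ∀ n : Fin 9, ∀ e, arr f e (n + 9 * k) = 0 := by
    intro k n
    induction k using Int.induction_on with
    | zero => simpa using fun e => h0 e n
    | succ k ih =>
      intro e
      have := h (e - N * (n + 9 * k) - c) (n + 9 * k)
      rw [ih] at this
      convert this using 2 <;> ring
    | pred k ih =>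
      intro e
      rw [← h, ← ih (e + N * (n + 9 * (-k - 1)) + c)]
      congr 1; ring
  refine arr_ext fun e n => ?_
  have := this (n / 9) ⟨(n % 9).toNat, by omega⟩ e
  rw [arr_zero, ← this]
  congr 1
  simp only
  omega

variable {N : ℤ} (hN : 0 < N)

lemma injOn_low {F : MvPolynomial (Fin 3) KK} {d : ℕ} (hF : F.IsHomogeneous d)
    (h : (∀ α ∈ F.support, α 1 ≤ 2) ∨ ∀ α ∈ F.support, α 0 = 0) :
    Set.InjOn (fun α : Fin 3 →₀ ℕ => 3 * α 0 + α 1) F.support := by
  intro α hα β hβ hab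
  have h1 := hom_deg hF hα
  have h2 := hom_deg hF hβ
  have h3 : α 0 = β 0 ∧ α 1 = β 1 ∧ α 2 = β 2 := by
    simp only at hab
    rcases h with h | h <;> have := h α hα <;> have := h β hβ <;> omega
  ext i
  fin_cases i
  exacts [h3.1, h3.2.1, h3.2.2]

lemma exists_cubic : ∃ c : MvPolynomial (Fin 3) KK, c.IsHomogeneous 3 ∧
    coeff (Finsupp.single 1 3) c = 1 ∧ eval₂Hom kk (Th hN 0) c = 0 := by
  classical
  let ι := {p : Fin 4 × Fin 4 // (p.1 : ℕ) + p.2 ≤ 3}
  let ex : ι → Fin 3 →₀ ℕ := fun p =>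
    Finsupp.equivFunOnFinite.symm ![p.1.1, p.1.2, 3 - p.1.1 - p.1.2]
  have hex : Function.Injective ex := fun p q h => by
    have h0 := DFunLike.congr_fun h 0
    have h1 := DFunLike.congr_fun h 1
    exact Subtype.ext (Prod.ext (Fin.ext h0) (Fin.ext h1))
  let L : MvPolynomial (Fin 3) KK →ₗ[KK] (Fin 9 → KK) :=
    { toFun := fun F n => col n (eval₂Hom kk (Th hN 0) F)
      map_add' := fun F G => by ext1 n; simp [col_add]
      map_smul' := fun l F => by ext1 n; simp [smul_eq_C_mul, col_mul] }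
  have hdep : ¬ LinearIndependent KK fun p : ι => L (monomial (ex p) 1) := fun h => by
    have := h.fintype_card_le_finrank
    rw [Module.finrank_fin_fun] at this
    exact absurd this (by decide)
  obtain ⟨g, hg, p, hp⟩ := Fintype.not_linearIndependent_iff.1 hdep
  obtain ⟨c, hc⟩ : ∃ c : MvPolynomial (Fin 3) KK, c = ∑ p, monomial (ex p) (g p) := ⟨_, rfl⟩
  have h1 : c.IsHomogeneous 3 := hc ▸ IsHomogeneous.sum _ _ _ fun p _ =>
    isHomogeneous_monomial _ (by
      rw [Finsupp.degree_eq_sum, Fin.sum_univ_three]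
      have := p.2
      change (p.1.1 : ℕ) + p.1.2 + (3 - p.1.1 - p.1.2) = 3
      omega)
  have h2 : c ≠ 0 := fun h => hp (by
    have := congrArg (coeff (ex p)) h
    rwa [hc, coeff_sum, Finset.sum_eq_single p (fun q _ hq => by
      rw [coeff_monomial, if_neg (hex.ne hq)]) (by simp), coeff_monomial, if_pos rfl] at this)
  have h3 : L c = 0 := by
    rw [← hg, hc, map_sum]
    refine Finset.sum_congr rfl fun p _ => ?_
    rw [← map_smul, smul_monomial, smul_eq_mul, mul_one]
  have h4 : eval₂Hom kk (Th hN 0) c = 0 :=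
    theta_zero (Rel.eval (Th_theta hN 0) h1) fun e n => by
      have := congrArg (fun f : KK => f.coeff e) (congrFun h3 n)
      exact this
  have h5 : coeff (Finsupp.single 1 3) c ≠ 0 := fun h => h2 (indep hN (injOn_low h1 (Or.inl
    fun α hα => ?_)) h4)
  · refine ⟨C (coeff (Finsupp.single 1 3) c)⁻¹ * c, by simpa using (isHomogeneous_C _ _).mul h1,
      by rw [coeff_C_mul, inv_mul_cancel₀ h5], by rw [map_mul, h4, mul_zero]⟩
  · by_contra h6
    have := hom_deg h1 hα
    refine mem_support_iff.1 hα (h ▸ congrArg (coeff · c) ?_)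
    ext i
    fin_cases i <;> simp <;> omega

lemma division {K : Type*} [CommRing K] {c : MvPolynomial (Fin 3) K} (hc : c.IsHomogeneous 3)
    (h1 : coeff (Finsupp.single 1 3) c = 1) (d l : ℕ) :
    ∀ F : MvPolynomial (Fin 3) K, F.IsHomogeneous d → F.degreeOf 1 ≤ l →
      ∃ G F', F = c * G + F' ∧ G.IsHomogeneous (d - 3) ∧ (d < 3 → G = 0) ∧ F'.IsHomogeneous d ∧
        F'.degreeOf 1 ≤ 2 := by
  classical
  have hρ : (X 1 ^ 3 - c).degreeOf 1 ≤ 2 := degreeOf_le_iff.2 fun α hα => by
    by_contra h6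
    have := hom_deg ((isHomogeneous_X_pow (R := K) 1 3).sub hc) hα
    have e : α = Finsupp.single 1 3 := by
      ext i
      fin_cases i <;> simp <;> omega
    refine mem_support_iff.1 hα ?_
    rw [e, coeff_sub, h1, coeff_X_pow, if_pos rfl, sub_self]
  induction l using Nat.strong_induction_on with
  | _ l ih =>
  intro F hF hl
  rw [F.as_sum]
  refine Finset.sum_induction _ (fun F => ∃ G F', F = c * G + F' ∧ G.IsHomogeneous (d - 3) ∧
    (d < 3 → G = 0) ∧ F'.IsHomogeneous d ∧ F'.degreeOf 1 ≤ 2) ?_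
    ⟨0, 0, by simp, isHomogeneous_zero .., fun _ => rfl, isHomogeneous_zero .., by simp⟩
    fun α hα => ?_
  · rintro _ _ ⟨G, F', rfl, a1, a2, a3, a4⟩ ⟨H, H', rfl, b1, b2, b3, b4⟩
    exact ⟨G + H, F' + H', by ring, a1.add b1, fun h => by simp [a2 h, b2 h], a3.add b3,
      (degreeOf_add_le ..).trans (max_le a4 b4)⟩
  have hd := hom_deg hF hα
  have hα1 := degreeOf_le_iff.1 hl α hα
  have hm : ∀ (β : Fin 3 →₀ ℕ) (k : K), (monomial β k).degreeOf 1 ≤ β 1 := fun β k =>
    degreeOf_le_iff.2 fun γ hγ => by rw [Finset.mem_singleton.1 (support_monomial_subset hγ)]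
  by_cases h2 : α 1 ≤ 2
  · exact ⟨0, monomial α (coeff α F), by simp, isHomogeneous_zero .., fun _ => rfl,
      isHomogeneous_monomial _
      (by rw [Finsupp.degree_eq_sum, Fin.sum_univ_three, hd]), (hm _ _).trans h2⟩
  obtain ⟨β, rfl⟩ : ∃ β, α = Finsupp.single 1 3 + β :=
    exists_add_of_le (Finsupp.single_le_iff.2 (by omega))
  simp only [Finsupp.add_apply, Finsupp.single_eq_same, ne_eq, Fin.reduceEq, not_false_eq_true,
    Finsupp.single_eq_of_ne] at hd hα1
  generalize coeff (Finsupp.single 1 3 + β) F = k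
  have hβ : (monomial β k).IsHomogeneous (d - 3) := isHomogeneous_monomial _
    (by rw [Finsupp.degree_eq_sum, Fin.sum_univ_three]; omega)
  obtain ⟨G, F', e, a1, a2, a3, a4⟩ := ih (l - 1) (by omega) ((X 1 ^ 3 - c) * monomial β k)
    (by convert ((isHomogeneous_X_pow (R := K) 1 3).sub hc).mul hβ using 1; omega)
    ((degreeOf_mul_le ..).trans (by have := hm β k; omega))
  refine ⟨G + monomial β k, F', ?_, a1.add hβ, fun h => by omega, a3, a4⟩
  rw [monomial_single_add]
  linear_combination e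

/-- the homogeneous relations are generated by the cubic -/
lemma ker_cubic (a : ℤ) {c : MvPolynomial (Fin 3) KK} (hc : c.IsHomogeneous 3)
    (h1 : coeff (Finsupp.single 1 3) c = 1) (h2 : eval₂Hom kk (Th hN 0) c = 0)
    {F : MvPolynomial (Fin 3) KK} {d : ℕ} (hF : F.IsHomogeneous d)
    (h : eval₂Hom kk (Th hN a) F = 0) :
    ∃ G, F = c * G ∧ G.IsHomogeneous (d - 3) ∧ (d < 3 → G = 0) := by
  obtain ⟨G, F', rfl, a1, a2, a3, a4⟩ := division hc h1 d _ F hF le_rfl
  have h3 := Rel.eval (Th_transfer hN a) hF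
  rw [h] at h3
  have h4 := h3.eq_zero_left
  rw [map_add, map_mul, h2, zero_mul, zero_add] at h4
  exact ⟨G, by rw [indep hN (injOn_low a3 (Or.inl (degreeOf_le_iff.1 a4))) h4, add_zero], a1, a2⟩

section PP
variable {K A : Type*} [CommRing K] [CommRing A] (φ : K →+* A)

/-- `F(θ + Z e₀)` -/
noncomputable def PP (θ : Fin 3 → A) : MvPolynomial (Fin 3) K →+* Polynomial A :=
  eval₂Hom (Polynomial.C.comp φ)
    ![Polynomial.C (θ 0) + Polynomial.X, Polynomial.C (θ 1), Polynomial.C (θ 2)]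

lemma PP_zero (θ : Fin 3 → A) (F : MvPolynomial (Fin 3) K) :
    (PP φ θ F).coeff 0 = eval₂Hom φ θ F := by
  have : Polynomial.constantCoeff.comp (PP φ θ) = eval₂Hom φ θ := by
    refine ringHom_ext (fun l => by simp [PP]) fun i => ?_
    fin_cases i <;> simp [PP]
  exact RingHom.congr_fun this F

lemma PP_deriv (θ : Fin 3 → A) (F : MvPolynomial (Fin 3) K) :
    Polynomial.derivative (PP φ θ F) = PP φ θ (pderiv 0 F) := by
  induction F using MvPolynomial.induction_on with
  | C l => simp [PP]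
  | add F G hF hG => simp [hF, hG]
  | mul_X F i hF =>
    rw [map_mul, Polynomial.derivative_mul, hF, pderiv_mul, map_add, map_mul, map_mul]
    congr 2
    fin_cases i <;> simp [PP]

lemma eval₂_scale (s : A) (x : Fin 3 → A) {F : MvPolynomial (Fin 3) K} {d : ℕ}
    (hF : F.IsHomogeneous d) : eval₂Hom φ (fun i => s * x i) F = s ^ d * eval₂Hom φ x F := by
  simp only [coe_eval₂Hom, eval₂_eq', Finset.mul_sum]
  refine Finset.sum_congr rfl fun α hα => ?_
  rw [← hom_deg hF hα, Fin.prod_univ_three, Fin.prod_univ_three]; ring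

lemma PP_scale (θ : Fin 3 → A) (D : A) {F : MvPolynomial (Fin 3) K} {d : ℕ}
    (hF : F.IsHomogeneous d) (b : ℕ) :
    (PP φ (fun i => D * θ i) F).coeff b * D ^ b = D ^ d * (PP φ θ F).coeff b := by
  rw [← Polynomial.comp_C_mul_X_coeff, ← Polynomial.coeff_C_mul, map_pow, PP, PP,
    ← eval₂_scale _ _ _ hF]
  have : (Polynomial.compRingHom (Polynomial.C D * Polynomial.X)).comp (PP φ fun i => D * θ i) =
      eval₂Hom (Polynomial.C.comp φ) fun i => Polynomial.C D *
        ![Polynomial.C (θ 0) + Polynomial.X, Polynomial.C (θ 1), Polynomial.C (θ 2)] i := by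
    refine ringHom_ext (fun l => by simp [PP]) fun i => ?_
    fin_cases i <;> simp [PP, mul_add]
  exact congrArg (Polynomial.coeff · b) (RingHom.congr_fun this F)

lemma coeff_step [IsDomain A] {R P : Polynomial A} {b : ℕ} (hR : R.coeff 0 ≠ 0)
    (h : ∀ b' < b + 1, (Polynomial.X * R * P).coeff b' = 0) :
    (∀ b' < b, P.coeff b' = 0) ∧ (Polynomial.X * R * P).coeff (b + 1) = R.coeff 0 * P.coeff b := by
  rw [← Polynomial.X_pow_dvd_iff, mul_assoc, pow_succ',
    mul_dvd_mul_iff_left Polynomial.X_ne_zero] at h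
  have h3 := Polynomial.prime_X.pow_dvd_of_dvd_mul_left b (by rwa [Polynomial.X_dvd_iff]) h
  refine ⟨Polynomial.X_pow_dvd_iff.1 h3, ?_⟩
  obtain ⟨S, rfl⟩ := h3
  rw [mul_assoc, Polynomial.coeff_X_mul, mul_left_comm, Polynomial.coeff_X_pow_mul',
    Polynomial.coeff_X_pow_mul', if_pos le_rfl, if_pos le_rfl, Nat.sub_self,
    Polynomial.mul_coeff_zero]

end PP

include hN in
theorem key (a : ℤ) : ∃ (D : AA) (θ : Fin 3 → AA), D ≠ 0 ∧
    ∀ (d : ℕ) (F : MvPolynomial (Fin 3) KK), F.IsHomogeneous d → (PP kk θ F = 0 → F = 0) ∧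
      ∀ b : ℕ, (∀ b' < b, (PP kk θ F).coeff b' = 0) → ∃ g, (PP kk θ F).coeff b = D ^ d * g ∧
        Rel N ((d - 3 * b : ℕ) * (3 * a)) ((d - 3 * b : ℕ) * 3) g g ∧ (d < 3 * b → g = 0) := by
  obtain ⟨c, hc, h1, h2⟩ := exists_cubic hN
  have hk := fun F d => ker_cubic hN a hc h1 h2 (F := F) (d := d)
  obtain ⟨D, hD⟩ : ∃ D, D = (PP kk (Th hN a) c).coeff 1 := ⟨_, rfl⟩
  have hca : eval₂Hom kk (Th hN a) c = 0 := by
    have := Rel.eval (Th_transfer hN a) hc
    rw [h2] at this
    exact this.eq_zero_right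
  have hD0 : D ≠ 0 := fun h => by
    have e := Polynomial.coeff_derivative (PP kk (Th hN a) c) 0
    rw [PP_deriv, PP_zero, zero_add, ← hD, h, zero_mul] at e
    obtain ⟨G, hG, -, hG0⟩ := hk _ _ (hc.pderiv (i := 0)) e
    rw [hG0 (by norm_num), mul_zero] at hG
    have : c = 0 := indep hN (injOn_low hc (Or.inr fun α hα => ?_)) h2
    · simp [this] at h1
    by_contra h0
    obtain ⟨β, rfl⟩ : ∃ β, α = Finsupp.single 0 1 + β :=
      exists_add_of_le (Finsupp.single_le_iff.2 (by omega))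
    have := coeff_pderiv (i := 0) c β
    rw [hG, coeff_zero, eq_comm, mul_eq_zero, add_comm] at this
    have hch : CharZero KK := (HahnSeries.C : ℂ →+* KK).charZero_iff HahnSeries.C_injective |>.1
      inferInstance
    exact this.elim (mem_support_iff.1 hα) (Nat.cast_add_one_ne_zero _)
  obtain ⟨R, hR⟩ : Polynomial.X ∣ PP kk (Th hN a) c := Polynomial.X_dvd_iff.2 (by rw [PP_zero, hca])
  have hR0 : R.coeff 0 = D := by rw [hD, hR, Polynomial.coeff_X_mul]
  have hinj : ∀ d F, F.IsHomogeneous d → PP kk (Th hN a) F = 0 → F = 0 := by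
    intro d
    induction d using Nat.strong_induction_on with
    | _ d ih =>
    intro F hF h
    obtain ⟨G, rfl, hG, hG0⟩ := hk F d hF (by rw [← PP_zero, h, Polynomial.coeff_zero])
    rcases lt_or_ge d 3 with hd | hd
    · rw [hG0 hd, mul_zero]
    rw [map_mul, mul_eq_zero] at h
    rw [ih _ (by omega) G hG (h.resolve_left fun h => hD0 (by rw [hD, h, Polynomial.coeff_zero])),
      mul_zero]
  have hmain : ∀ b d F, F.IsHomogeneous d → (∀ b' < b, (PP kk (Th hN a) F).coeff b' = 0) →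
      ∃ g, (PP kk (Th hN a) F).coeff b = D ^ b * g ∧
        Rel N ((d - 3 * b : ℕ) * (3 * a)) ((d - 3 * b : ℕ) * 3) g g ∧ (d < 3 * b → g = 0) := by
    intro b
    induction b with
    | zero =>
      exact fun d F hF _ => ⟨_, by rw [pow_zero, one_mul, PP_zero], Rel.eval (Th_theta hN a) hF,
        fun h => by omega⟩
    | succ b ih =>
      intro d F hF h
      obtain ⟨G, rfl, hG, hG0⟩ := hk F d hF
        (by rw [← PP_zero]; exact h 0 b.succ_pos)
      rcases lt_or_ge d 3 with hd | hd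
      · exact ⟨0, by simp [hG0 hd], Rel.zero, fun _ => rfl⟩
      rw [map_mul, hR] at h ⊢
      obtain ⟨h3, h4⟩ := coeff_step (hR0 ▸ hD0) h
      obtain ⟨g, e, hg1, hg2⟩ := ih _ G hG h3
      refine ⟨g, ?_, by convert hg1 using 3 <;> omega, fun h => hg2 (by omega)⟩
      rw [h4, e, hR0]
      ring
  refine ⟨D, fun i => D * Th hN a i, hD0, fun d F hF => ⟨fun h => hinj d F hF ?_, fun b hb => ?_⟩⟩
  · ext1 b
    have := PP_scale kk (Th hN a) D hF b
    rw [h, Polynomial.coeff_zero, zero_mul, eq_comm, mul_eq_zero] at this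
    exact this.resolve_left (pow_ne_zero _ hD0)
  · obtain ⟨g, e, hg⟩ := hmain b d F hF (fun b' hb' => by
      have := PP_scale kk (Th hN a) D hF b'
      rw [hb b' hb', zero_mul, eq_comm, mul_eq_zero] at this
      exact this.resolve_left (pow_ne_zero _ hD0))
    refine ⟨g, mul_right_cancel₀ (pow_ne_zero b hD0) ?_, hg⟩
    rw [PP_scale kk _ _ hF, e]; ring

/-- the exponents in the lowest coefficient of a theta series -/
lemma window {N c k e n : ℤ} {g : AA} (h : Rel N c k g g) (h0 : ∀ e' < e, g.coeff e' = 0)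
    (hn : arr g e n ≠ 0) : 0 ≤ N * n + c ∧ N * (n - k) + c ≤ 0 := by
  constructor <;> by_contra hc <;> rw [not_le] at hc <;> refine hn ?_
  · rw [← h, arr, h0 _ (by omega)]; rfl
  · have := h (e - N * (n - k) - c) (n - k)
    rw [show e - N * (n - k) - c + N * (n - k) + c = e by ring, sub_add_cancel] at this
    rw [this, arr, h0 _ (by omega)]; rfl

end Crest.Agent.R259
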