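import Crest.Prelude.Def_VanishingOrder

/-! Row 259 (Nagata): from one configuration over a field extension to very general points. -/

set_option autoImplicit false

namespace Crest.Agent.R259

open MvPolynomial Crest.AlgGeometry

variable {R : Type*} [CommRing R]

lemma van_iff {f : MvPolynomial (Fin 2) R} {a : Fin 2 → R} {m : ℕ} : VanishesToOrder f a m ↔
    ∀ β : Fin 2 →₀ ℕ, β.degree < m → coeff β (aeval (fun j => X j + C (a j)) f) = 0 := by
  constructor
  · intro h β hβ
    have := congrArg (coeff β) (h _ hβ)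
    rwa [coeff_homogeneousComponent, if_pos rfl] at this
  · intro h k hk
    ext β
    rw [coeff_homogeneousComponent]
    split_ifs with hβ
    · exact h β (hβ ▸ hk)
    · rfl

/-- no curve of degree `d` with the multiplicities `m` -/
def No {r : ℕ} (d : ℕ) (m : Fin r → ℕ) (p : Fin r → Fin 2 → R) : Prop :=
  ∀ f : MvPolynomial (Fin 2) R, f.totalDegree ≤ d → (∀ i, VanishesToOrder f (p i) (m i)) → f = 0

/-- exponents of degree `< k` -/
noncomputable def Ex (k : ℕ) : Finset (Fin 2 →₀ ℕ) :=
  (Finsupp.finite_of_degree_le (σ := Fin 2) k).toFinset.filter fun β => β.degree < k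

lemma mem_Ex {k : ℕ} {β : Fin 2 →₀ ℕ} : β ∈ Ex k ↔ β.degree < k := by
  simp only [Ex, Finset.mem_filter, Set.Finite.mem_toFinset, and_iff_right_iff_imp]
  exact fun h => h.le

variable {r : ℕ} (d : ℕ) (m : Fin r → ℕ)

/-- the interpolation matrix -/
noncomputable def Mat (p : Fin r → Fin 2 → R) : Matrix (Σ i, Ex (m i)) (Ex (d + 1)) R :=
  fun x α => coeff x.2.1 (aeval (fun j => X j + C (p x.1 j)) (monomial α.1 (1 : R)))

lemma Mat_map {S : Type*} [CommRing S] (φ : R →+* S) (p : Fin r → Fin 2 → R) :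
    (Mat d m p).map φ = Mat d m fun i j => φ (p i j) := by
  ext x α
  simp only [Mat, Matrix.map_apply, ← coeff_map, aeval_monomial, Finsupp.prod, map_one, one_mul,
    map_prod, map_pow, map_add, map_X, map_C]

lemma Mat_mulVec (p : Fin r → Fin 2 → R) (a : Ex (d + 1) → R) (x : Σ i, Ex (m i)) :
    (Mat d m p).mulVec a x =
      coeff x.2.1 (aeval (fun j => X j + C (p x.1 j)) (∑ α, monomial α.1 (a α))) := by
  simp only [Matrix.mulVec, dotProduct, map_sum, coeff_sum, Mat]
  refine Finset.sum_congr rfl fun α _ => ?_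
  rw [mul_comm, ← coeff_C_mul, aeval_monomial, aeval_monomial, map_one, one_mul, algebraMap_eq]

lemma no_iff (p : Fin r → Fin 2 → R) : No d m p ↔ ∀ a, (Mat d m p).mulVec a = 0 → a = 0 := by
  classical
  constructor
  · intro h a ha
    have := h (∑ α, monomial α.1 (a α)) (totalDegree_finsetSum_le fun α _ =>
      (totalDegree_monomial_le _ _).trans (Nat.lt_succ_iff.1 (mem_Ex.1 α.2))) fun i =>
        van_iff.2 fun β hβ => by
          have := Mat_mulVec d m p a ⟨i, β, mem_Ex.2 hβ⟩
          rw [ha] at this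
          exact this.symm
    funext α
    have := congrArg (coeff α.1) this
    rwa [coeff_sum, Finset.sum_eq_single α (fun q _ hq => by
      rw [coeff_monomial, if_neg (Subtype.coe_ne_coe.2 hq)]) (by simp), coeff_monomial,
      if_pos rfl] at this
  · intro h f hf hv
    have e : ∑ α : Ex (d + 1), monomial α.1 (coeff α.1 f) = f := by
      rw [Finset.sum_coe_sort (Ex (d + 1)) fun α => monomial α (coeff α f)]
      conv_rhs => rw [f.as_sum]
      refine (Finset.sum_subset (fun α hα => mem_Ex.2 (Nat.lt_succ_of_le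
        ((le_totalDegree hα).trans hf))) fun α _ hα => ?_).symm
      rw [notMem_support_iff.1 hα, monomial_zero]
    have := h (fun α => coeff α.1 f) (funext fun x => by
      rw [Mat_mulVec, e]; exact van_iff.1 (hv x.1) _ (mem_Ex.1 x.2.2))
    rw [← e]
    exact Finset.sum_eq_zero fun α _ => by rw [show coeff α.1 f = 0 from congrFun this α, monomial_zero]

lemma gen_mat {ι ρ P L : Type*} [Fintype ι] [Fintype ρ] [DecidableEq ι] [CommRing P] [IsDomain P]
    [Infinite P] [Field L] (ψ : P →+* L) (M : Matrix ρ ι P)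
    (h : ∀ a, (M.map ψ).mulVec a = 0 → a = 0) : ∃ Y : Matrix ι ρ P, (Y * M).det ≠ 0 := by
  classical
  obtain ⟨l, hl⟩ := (Matrix.toLin' (M.map ψ)).exists_leftInverse_of_injective
    (LinearMap.ker_eq_bot'.2 h)
  have h1 : LinearMap.toMatrix' l * M.map ψ = 1 := by
    have := congrArg LinearMap.toMatrix' hl
    rwa [LinearMap.toMatrix'_comp, LinearMap.toMatrix'_toLin', LinearMap.toMatrix'_id] at this
  let Z : Matrix ι ρ (MvPolynomial (ι × ρ) P) := Matrix.of fun a b => X (a, b)
  let W : Matrix ρ ι (MvPolynomial (ι × ρ) P) := M.map C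
  obtain ⟨A, hA⟩ : ∃ A : Matrix ι ι (MvPolynomial (ι × ρ) P), A = Z * W := ⟨_, rfl⟩
  have h0 : A.det ≠ 0 := fun h0 => by
    have := congrArg (eval₂Hom ψ fun x => LinearMap.toMatrix' l x.1 x.2) h0
    rw [map_zero, RingHom.map_det, RingHom.mapMatrix_apply, hA, Matrix.map_mul] at this
    refine zero_ne_one (this.symm.trans ?_)
    rw [← Matrix.det_one (n := ι), ← h1]
    congr 2 <;> ext <;> simp [Z, W]
  obtain ⟨y, hy⟩ : ∃ y, eval y A.det ≠ 0 := by
    by_contra hc
    push Not at hc
    exact h0 (MvPolynomial.funext fun y => by rw [hc, map_zero])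
  refine ⟨Matrix.of fun a b => y (a, b), ?_⟩
  rw [RingHom.map_det, RingHom.mapMatrix_apply, hA, Matrix.map_mul] at hy
  convert hy using 3 <;> ext <;> simp [Z, W]

theorem gen {L : Type*} [Field L] (φ : ℂ →+* L) {q : Fin r → Fin 2 → L} (hq : No d m q) :
    ∃ g : MvPolynomial (Fin r × Fin 2) ℂ, g ≠ 0 ∧ ∀ p : Fin r → Fin 2 → ℂ,
      eval (fun ij : Fin r × Fin 2 => p ij.1 ij.2) g ≠ 0 → No d m p := by
  classical
  obtain ⟨Y, hY⟩ := gen_mat (eval₂Hom φ fun ij : Fin r × Fin 2 => q ij.1 ij.2)
    (Mat d m fun i j => X (i, j)) (by rw [Mat_map]; simpa using (no_iff d m q).1 hq)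
  refine ⟨_, hY, fun p hp => (no_iff d m p).2 fun a ha => ?_⟩
  rw [RingHom.map_det, RingHom.mapMatrix_apply, Matrix.map_mul, Mat_map] at hp
  simp only [eval_X] at hp
  exact Matrix.eq_zero_of_mulVec_eq_zero hp (by rw [← Matrix.mulVec_mulVec, ha, Matrix.mulVec_zero])

theorem exists_avoid {σ : Type*} [Fintype σ] {S : Set (MvPolynomial σ ℂ)} (hS : S.Countable)
    (h0 : ∀ g ∈ S, g ≠ 0) : ∃ x : σ → ℂ, ∀ g ∈ S, eval x g ≠ 0 := by
  have := dense_biInter_of_isOpen (f := fun g : MvPolynomial σ ℂ => {x : σ → ℂ | eval x g ≠ 0})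
    (fun g _ => isOpen_ne_fun (continuous_eval g) continuous_const) hS fun g hg => by
      rw [Metric.dense_iff]
      intro x ε hε
      by_contra hc
      refine h0 g hg (funext_set (fun i => Metric.ball (x i) ε)
        (fun i => infinite_of_mem_nhds (x i) (Metric.ball_mem_nhds _ hε)) fun y hy => ?_)
      rw [← ball_pi _ hε] at hy
      by_contra h
      exact hc ⟨y, hy, by simpa using h⟩
  obtain ⟨x, hx⟩ := this.nonempty
  exact ⟨x, by simpa using hx⟩

end Crest.Agent.R259
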