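import Mathlib

/-! Row 259 (Nagata): Laurent series over Laurent polynomials, coefficient arrays. -/

set_option autoImplicit false

namespace Crest.Agent.R259

open LaurentPolynomial

section map
variable {R S : Type*} [CommRing R] [CommRing S]

/-- coefficientwise map of Laurent series -/
noncomputable def hmap (φ : R →+* S) : HahnSeries ℤ R →+* HahnSeries ℤ S where
  toFun x := x.map φ
  map_one' := HahnSeries.map_one φ.toMonoidWithZeroHom
  map_mul' _ _ := HahnSeries.map_mul φ.toNonUnitalRingHom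
  map_zero' := by ext; simp
  map_add' _ _ := HahnSeries.map_add φ.toAddMonoidHom

@[simp] lemma hmap_coeff (φ : R →+* S) (x : HahnSeries ℤ R) (e : ℤ) :
    (hmap φ x).coeff e = φ (x.coeff e) := rfl

lemma hmap_single (φ : R →+* S) (e : ℤ) (r : R) :
    hmap φ (HahnSeries.single e r) = HahnSeries.single e (φ r) := by
  ext e'
  simp only [hmap_coeff, HahnSeries.coeff_single]
  split_ifs <;> simp

lemma hmap_C (φ : R →+* S) (r : R) : hmap φ (HahnSeries.C r) = HahnSeries.C (φ r) :=
  hmap_single φ 0 r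

lemma hmap_hmap {U : Type*} [CommRing U] (φ : R →+* S) (ψ : S →+* U) (x : HahnSeries ℤ R) :
    hmap ψ (hmap φ x) = hmap (ψ.comp φ) x := rfl

lemma hmap_inj {φ : R →+* S} (h : Function.Injective φ) : Function.Injective (hmap φ) :=
  fun x y hxy => by ext e; exact h (congrArg (fun z => HahnSeries.coeff z e) hxy)

/-- series with all coefficients in `I` -/
noncomputable def hI (I : Ideal R) : Ideal (HahnSeries ℤ R) :=
  RingHom.ker (hmap (Ideal.Quotient.mk I))

lemma mem_hI {I : Ideal R} {f : HahnSeries ℤ R} : f ∈ hI I ↔ ∀ e, f.coeff e ∈ I := by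
  simp [hI, RingHom.mem_ker, HahnSeries.ext_iff, funext_iff, Ideal.Quotient.eq_zero_iff_mem]

lemma hI_mono {I J : Ideal R} (h : I ≤ J) : hI I ≤ hI J :=
  fun _ hf => mem_hI.2 fun e => h (mem_hI.1 hf e)

lemma hI_pow (I : Ideal R) (m : ℕ) : hI I ^ m ≤ hI (I ^ m) := by
  induction m with
  | zero => intro f _; simp [mem_hI]
  | succ m ih =>
    rw [pow_succ, Ideal.mul_le]
    intro f hf g hg
    refine mem_hI.2 fun e => ?_
    rw [HahnSeries.coeff_mul, pow_succ]
    exact Ideal.sum_mem _ fun ij _ => Ideal.mul_mem_mul (mem_hI.1 (ih hf) _) (mem_hI.1 hg _)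

lemma ker_hmap (φ : R →+* S) : RingHom.ker (hmap φ) = hI (RingHom.ker φ) := by
  ext f
  simp [mem_hI, RingHom.mem_ker, HahnSeries.ext_iff, funext_iff]

/-- coefficient of a product at the sum of two lower bounds for the supports -/
lemma coeff_mul_low {f g : HahnSeries ℤ R} {a b : ℤ} (hf : ∀ e < a, f.coeff e = 0)
    (hg : ∀ e < b, g.coeff e = 0) : (f * g).coeff (a + b) = f.coeff a * g.coeff b := by
  rw [HahnSeries.coeff_mul]
  refine (Finset.sum_eq_single (a, b) (fun ij hij hne => ?_) fun h => ?_)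
  · obtain ⟨h1, h2, h3⟩ := Finset.mem_antidiagonal.1 hij
    have a1 := not_lt.1 fun h => h1 (hf _ h)
    have a2 := not_lt.1 fun h => h2 (hg _ h)
    exact absurd (Prod.ext (by simp only; omega) (by simp only; omega)) hne
  · by_contra h0
    exact h (Finset.mem_antidiagonal.2
      ⟨left_ne_zero_of_mul h0, right_ne_zero_of_mul h0, rfl⟩)

lemma coeff_mul_lt {f g : HahnSeries ℤ R} {a b : ℤ} (hf : ∀ e < a, f.coeff e = 0)
    (hg : ∀ e < b, g.coeff e = 0) : ∀ e < a + b, (f * g).coeff e = 0 := by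
  intro e he
  rw [HahnSeries.coeff_mul]
  refine Finset.sum_eq_zero fun ij hij => ?_
  obtain ⟨h1, h2, h3⟩ := Finset.mem_antidiagonal.1 hij
  have a1 := not_lt.1 fun h => h1 (hf _ h)
  have a2 := not_lt.1 fun h => h2 (hg _ h)
  omega

end map

/-- Laurent polynomials in `u` -/
abbrev LP := ℂ[T;T⁻¹]
/-- `ℂ((t))` -/
abbrev KK := HahnSeries ℤ ℂ
/-- `ℂ[u,u⁻¹]((t))` -/
abbrev AA := HahnSeries ℤ LP

/-- constants -/
noncomputable def kk : KK →+* AA := hmap LaurentPolynomial.C

/-- coefficient of `t^e u^n` -/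
def arr (f : AA) (e n : ℤ) : ℂ := (f.coeff e).coeff n

lemma arr_ext {f g : AA} (h : ∀ e n, arr f e n = arr g e n) : f = g := by
  ext e n; exact h e n

@[simp] lemma arr_zero (e n : ℤ) : arr 0 e n = 0 := by simp [arr]

lemma arr_add (f g : AA) (e n : ℤ) : arr (f + g) e n = arr f e n + arr g e n := by simp [arr]

lemma arr_kk (l : KK) (e n : ℤ) : arr (kk l) e n = if n = 0 then l.coeff e else 0 := by
  simp [arr, kk]

lemma arr_mul (f g : AA) (e n : ℤ) :
    arr (f * g) e n = ∑ᶠ p : ℤ × ℤ, arr f p.1 p.2 * arr g (e - p.1) (n - p.2) := by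
  classical
  set s := Finset.antidiagonal f.isPWO_support g.isPWO_support e with hs
  rw [finsum_eq_sum_of_support_subset (s := (s.sigma fun ij => (f.coeff ij.1).coeff.support).image
    fun x => (x.1.1, x.2))]
  · rw [Finset.sum_image, Finset.sum_sigma, arr, HahnSeries.coeff_mul, AddMonoidAlgebra.coeff_sum,
      Finsupp.finsetSum_apply]
    · refine Finset.sum_congr rfl fun ij hij => ?_
      rw [AddMonoidAlgebra.coeff_mul_apply_left, Finsupp.sum]
      obtain ⟨-, -, h3⟩ := Finset.mem_antidiagonal.1 hij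
      refine Finset.sum_congr rfl fun k _ => ?_
      simp only [arr]
      rw [show e - ij.1 = ij.2 by omega, show -k + n = n - k by omega]
    · rintro ⟨⟨i, j⟩, k⟩ h1 ⟨⟨i', j'⟩, k'⟩ h2 h
      simp only [Finset.coe_sigma, Set.mem_sigma_iff, Finset.mem_coe, hs,
        Finset.mem_antidiagonal] at h1 h2
      simp only [Prod.mk.injEq] at h
      obtain ⟨rfl, rfl⟩ := h
      obtain rfl : j = j' := by have := h1.1.2.2; have := h2.1.2.2; omega
      rfl
  · rintro ⟨i, k⟩ h
    have h1 : arr f i k ≠ 0 := left_ne_zero_of_mul h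
    have h2 : arr g (e - i) (n - k) ≠ 0 := right_ne_zero_of_mul h
    simp only [Finset.coe_image, Set.mem_image, Finset.mem_coe, Finset.mem_sigma]
    refine ⟨⟨(i, e - i), k⟩, ⟨Finset.mem_antidiagonal.2 ⟨fun h0 => h1 ?_, fun h0 => h2 ?_, by simp⟩,
      Finsupp.mem_support_iff.2 h1⟩, rfl⟩
    · simp only at h0; simp [arr, h0]
    · simp only at h0; simp [arr, h0]

/-- `g = t^c u^j f(t^a u)` -/
def Rel (a c j : ℤ) (f g : AA) : Prop := ∀ e n, arr g (e + a * n + c) (n + j) = arr f e n

namespace Rel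
variable {a c j c' j' : ℤ} {f g f' g' : AA}

lemma zero : Rel a c j 0 0 := fun _ _ => by simp

lemma add (h : Rel a c j f g) (h' : Rel a c j f' g') : Rel a c j (f + f') (g + g') :=
  fun e n => by rw [arr_add, arr_add, h, h']

lemma const (l : KK) : Rel a 0 0 (kk l) (kk l) := fun e n => by
  simp only [arr_kk, add_zero]
  split_ifs with h <;> simp [h]

lemma one : Rel a 0 0 1 1 := by simpa using const (a := a) 1

lemma mul (h : Rel a c j f g) (h' : Rel a c' j' f' g') :
    Rel a (c + c') (j + j') (f * f') (g * g') := fun e n => by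
  rw [arr_mul, arr_mul]
  symm
  refine finsum_eq_of_bijective (fun p => (p.1 + a * p.2 + c, p.2 + j)) ?_ fun p => ?_
  · refine Function.bijective_iff_has_inverse.2
      ⟨fun p => (p.1 - a * (p.2 - j) - c, p.2 - j), fun p => ?_, fun p => ?_⟩ <;>
    · ext <;> simp only <;> ring
  · rw [← h, ← h']
    congr 2 <;> ring

lemma pow (h : Rel a c j f g) (k : ℕ) : Rel a (k * c) (k * j) (f ^ k) (g ^ k) := by
  induction k with
  | zero => simpa using one
  | succ k ih =>
    have := ih.mul h
    rwa [← pow_succ, ← pow_succ, ← add_one_mul, ← add_one_mul, ← Nat.cast_succ] at this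

lemma sum {ι : Type*} (s : Finset ι) {F G : ι → AA} (h : ∀ i ∈ s, Rel a c j (F i) (G i)) :
    Rel a c j (∑ i ∈ s, F i) (∑ i ∈ s, G i) := by
  classical
  induction s using Finset.induction_on with
  | empty => simpa using zero
  | insert i s hi ih =>
    rw [Finset.sum_insert hi, Finset.sum_insert hi]
    exact (h i (by simp)).add (ih fun k hk => h k (by simp [hk]))

lemma eq_zero_left (h : Rel a c j f 0) : f = 0 := arr_ext fun e n => by rw [← h]; simp

lemma eq_zero_right (h : Rel a c j 0 g) : g = 0 := arr_ext fun e n => by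
  have := h (e - a * (n - j) - c) (n - j)
  rwa [show e - a * (n - j) - c + a * (n - j) + c = e by ring, sub_add_cancel, arr_zero,
    ← arr_zero e n] at this

lemma _root_.Crest.Agent.R259.hom_deg {K : Type*} [CommSemiring K] {F : MvPolynomial (Fin 3) K}
    {d : ℕ} (hF : F.IsHomogeneous d) {α : Fin 3 →₀ ℕ} (hα : α ∈ F.support) :
    α 0 + α 1 + α 2 = d := by
  have := hF (MvPolynomial.mem_support_iff.1 hα)
  rw [Finsupp.weight_apply, Finsupp.sum_fintype _ _ (by simp), Fin.sum_univ_three] at this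
  simpa using this

open MvPolynomial in
lemma eval {θ θ' : Fin 3 → AA} (h : ∀ i, Rel a c j (θ i) (θ' i)) {F : MvPolynomial (Fin 3) KK}
    {d : ℕ} (hF : F.IsHomogeneous d) :
    Rel a (d * c) (d * j) (eval₂Hom kk θ F) (eval₂Hom kk θ' F) := by
  simp only [coe_eval₂Hom, eval₂_eq']
  refine sum _ fun α hα => ?_
  have hd := hom_deg hF hα
  have := (const (a := a) (coeff α F)).mul ((((h 0).pow (α 0)).mul ((h 1).pow (α 1))).mul
    ((h 2).pow (α 2)))
  simp only [Fin.prod_univ_three]
  convert this using 1 <;> (rw [← hd]; push_cast; ring)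

end Rel

end Crest.Agent.R259
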