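import Crest.Agent.R259.Cubic
import Crest.Agent.R259.Comb
import Crest.Agent.R259.Gen

/-! Row 259 (Nagata): the special configuration over `ℂ((t))((ε))`. -/

set_option autoImplicit false
set_option maxSynthPendingDepth 3

namespace Crest.Agent.R259

open MvPolynomial Crest.AlgGeometry

section hev
variable {L R : Type*} [CommRing L] [CommRing R]

/-- value of the homogenisation -/
noncomputable def hev (κ : L →+* R) (d : ℕ) (f : MvPolynomial (Fin 2) L) (z : R) (x : Fin 2 → R) :
    R := ∑ α ∈ f.support, κ (coeff α f) * (z ^ (d - (α 0 + α 1)) * x 0 ^ α 0 * x 1 ^ α 1)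

lemma deg_le {f : MvPolynomial (Fin 2) L} {d : ℕ} (hf : f.totalDegree ≤ d) {α : Fin 2 →₀ ℕ}
    (hα : α ∈ f.support) : α 0 + α 1 ≤ d := by
  have := (le_totalDegree hα).trans hf
  rwa [Finsupp.sum_fintype _ _ (by simp), Fin.sum_univ_two] at this

lemma hev_eq {F : Type*} [Field F] (κ : L →+* F) {d : ℕ} {f : MvPolynomial (Fin 2) L}
    (hf : f.totalDegree ≤ d) {z : F} (hz : z ≠ 0) (x : Fin 2 → F) :
    hev κ d f z x = z ^ d * eval₂Hom κ (fun j => x j / z) f := by
  rw [coe_eval₂Hom, eval₂_eq', Finset.mul_sum, hev]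
  refine Finset.sum_congr rfl fun α hα => ?_
  obtain ⟨k, rfl⟩ := Nat.exists_eq_add_of_le (deg_le hf hα)
  rw [Fin.prod_univ_two, Nat.add_sub_cancel_left, div_pow, div_pow]
  field_simp
  ring

lemma shift_deg (p : Fin 2 → L) (f : MvPolynomial (Fin 2) L) :
    (aeval (fun j => X j + C (p j) : Fin 2 → MvPolynomial (Fin 2) L) f).totalDegree ≤
      f.totalDegree := by
  rcases subsingleton_or_nontrivial L with h | h
  · simp [Subsingleton.elim f 0]
  rw [aeval_def, eval₂_eq']
  refine totalDegree_finsetSum_le fun α hα => (totalDegree_mul _ _).trans ?_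
  rw [algebraMap_eq, totalDegree_C, zero_add, Fin.prod_univ_two]
  have h : ∀ (j : Fin 2) (k : ℕ), ((X j + C (p j) : MvPolynomial (Fin 2) L) ^ k).totalDegree ≤ k :=
    fun j k => (totalDegree_pow _ _).trans (mul_le_of_le_one_right' ((totalDegree_add _ _).trans
      (by simp [totalDegree_X])))
  exact (totalDegree_mul _ _).trans ((add_le_add (h _ _) (h _ _)).trans (deg_le le_rfl hα))

lemma hev_mem [IsDomain R] (κ : L →+* R) (J : Ideal R) {d m : ℕ} {f : MvPolynomial (Fin 2) L}
    (hf : f.totalDegree ≤ d) {p : Fin 2 → L} (hv : VanishesToOrder f p m) {z : R} (hz : z ≠ 0)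
    {x : Fin 2 → R} (hx : ∀ j, x j - κ (p j) * z ∈ J) : hev κ d f z x ∈ J ^ m := by
  obtain ⟨g, hg⟩ : ∃ g : MvPolynomial (Fin 2) L, g = aeval (fun j => X j + C (p j)) f := ⟨_, rfl⟩
  have hgd : g.totalDegree ≤ d := hg ▸ (shift_deg p f).trans hf
  have e : hev κ d f z x = hev κ d g z fun j => x j - κ (p j) * z := by
    apply IsFractionRing.injective R (FractionRing R)
    have hm : ∀ (f : MvPolynomial (Fin 2) L) (x : Fin 2 → R),
        algebraMap R (FractionRing R) (hev κ d f z x) =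
          hev ((algebraMap R (FractionRing R)).comp κ) d f (algebraMap R _ z)
            fun j => algebraMap R _ (x j) := fun f x => by simp [hev]
    have hz' : algebraMap R (FractionRing R) z ≠ 0 := by simpa using hz
    rw [hm, hm, hev_eq _ hf hz', hev_eq _ hgd hz', hg, aeval_def, coe_eval₂Hom, coe_eval₂Hom,
      ← coe_eval₂Hom _ (fun j => algebraMap R _ (x j - κ (p j) * z) / _), eval₂_comp_left]
    congr 2
    · ext l; simp
    · funext j
      simp only [Function.comp_apply, map_add, eval₂Hom_X', eval₂Hom_C, RingHom.comp_apply, map_sub,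
        map_mul]
      field_simp
      ring
  rw [e]
  refine Ideal.sum_mem _ fun α hα => Ideal.mul_mem_left _ _ ?_
  have : m ≤ α 0 + α 1 := by
    by_contra hc
    refine mem_support_iff.1 hα (hg ▸ van_iff.1 hv α ?_)
    rw [Finsupp.degree_eq_sum, Fin.sum_univ_two]; omega
  rw [mul_assoc]
  refine Ideal.mul_mem_left _ _ (Ideal.pow_le_pow_right this ?_)
  rw [pow_add]
  exact Ideal.mul_mem_mul (Ideal.pow_mem_pow (hx 0) _) (Ideal.pow_mem_pow (hx 1) _)

end hev

/-- `ℂ[u,u⁻¹][y]((t))` -/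
abbrev BB := HahnSeries ℤ (Polynomial LP)

/-- inclusion -/
noncomputable def ii : AA →+* BB := hmap Polynomial.C

/-- `Z ↦ ε y` -/
noncomputable def psi : Polynomial AA →+* HahnSeries ℤ BB :=
  Polynomial.eval₂RingHom (HahnSeries.C.comp ii) (HahnSeries.single (1 : ℤ) (HahnSeries.C Polynomial.X))

/-- constants -/
noncomputable def kap : HahnSeries ℤ KK →+* HahnSeries ℤ BB := hmap (ii.comp kk)

/-- `∑ y^b g_b` -/
noncomputable def ysum (n : ℕ) (g : ℕ → AA) : BB :=
  ∑ b ∈ Finset.range n, HahnSeries.C Polynomial.X ^ b * ii (g b)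

lemma ysum_coeff (n : ℕ) (g : ℕ → AA) (e : ℤ) (b : ℕ) :
    ((ysum n g).coeff e).coeff b = if b < n then (g b).coeff e else 0 := by
  simp only [ysum, HahnSeries.coeff_sum, HahnSeries.C_apply, HahnSeries.single_pow, smul_zero,
    HahnSeries.coeff_single_zero_mul, ii, hmap_coeff, Polynomial.finsetSum_coeff,
    Polynomial.coeff_mul_C, Polynomial.coeff_X_pow, ite_mul, one_mul, zero_mul, Finset.sum_ite_eq,
    Finset.mem_range]

lemma psi_coeff (l : HahnSeries ℤ KK) (P : Polynomial AA) {n : ℕ} (hn : P.natDegree < n) (μ : ℤ) :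
    (kap l * psi P).coeff μ = ysum n fun b => kk (l.coeff (μ - b)) * P.coeff b := by
  rw [psi, Polynomial.coe_eval₂RingHom, Polynomial.eval₂_eq_sum_range' _ hn, Finset.mul_sum,
    HahnSeries.coeff_sum, ysum]
  refine Finset.sum_congr rfl fun b _ => ?_
  rw [HahnSeries.single_pow, RingHom.comp_apply, HahnSeries.C_apply, HahnSeries.single_mul_single,
    HahnSeries.coeff_mul_single, kap, hmap_coeff, map_mul]
  simp only [RingHom.comp_apply, nsmul_eq_mul, mul_one, zero_add]
  ring

lemma exists_pts (r : ℕ) {E : LP} (hE : E ≠ 0) :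
    ∃ u : Fin r → ℂˣ, Function.Injective u ∧ ∀ i, ev (u i) E ≠ 0 := by
  obtain ⟨s, f, hf⟩ := E.exists_T_pow
  have hf0 : f ≠ 0 := fun h => hE (by
    rw [h, map_zero, eq_comm, mul_eq_zero] at hf
    exact hf.resolve_right (LaurentPolynomial.isUnit_T _).ne_zero)
  have h1 : {z : ℂ | (f * Polynomial.X).IsRoot z}ᶜ.Infinite :=
    (Polynomial.finite_setOfPred_isRoot (mul_ne_zero hf0 Polynomial.X_ne_zero)).infinite_compl
  have h2 : ∀ k : ℕ, f.eval (h1.natEmbedding _ k : ℂ) ≠ 0 ∧ (h1.natEmbedding _ k : ℂ) ≠ 0 :=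
    fun k => by simpa [not_or] using (h1.natEmbedding _ k).2
  refine ⟨fun i => Units.mk0 _ (h2 i).2, fun i j hij => ?_, fun i h => (h2 i).1 ?_⟩
  · exact Fin.ext ((h1.natEmbedding _).injective (Subtype.ext (congrArg Units.val hij)))
  · have := ev_toLaurent (Units.mk0 _ (h2 i).2) f
    rw [hf, map_mul, h, zero_mul] at this
    exact this.symm

lemma win_arith {d M k n : ℤ} (hd : 1 ≤ d) (hk0 : 0 ≤ k) (hk : k ≤ d)
    (h1 : 0 ≤ 3 * d * (d + 1) * n + k * (3 * (3 * d * (d + 1) - M * (d + 1) + 1)))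
    (h2 : 3 * d * (d + 1) * (n - k * 3) + k * (3 * (3 * d * (d + 1) - M * (d + 1) + 1)) ≤ 0) :
    (M - 3 * d) * k ≤ d * n ∧ (d * n < M * k ∨ n = 0 ∧ k = 0) := by
  have a1 : 0 ≤ (d + 1) * (d * n - (M - 3 * d) * k) + k := by nlinarith
  have a2 : (d + 1) * (d * n - M * k) + k ≤ 0 := by nlinarith
  have a3 : (M - 3 * d) * k ≤ d * n := by
    by_contra hc
    nlinarith
  refine ⟨a3, ?_⟩
  rcases hk0.eq_or_lt with rfl | hk1
  · refine Or.inr ⟨?_, rfl⟩
    have : d * n = 0 := by nlinarith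
    exact (mul_eq_zero.1 this).resolve_left (by omega)
  · exact Or.inl (by nlinarith)

theorem special {r d : ℕ} (m : Fin r → ℕ) (hd : 1 ≤ d) {M : ℤ} (hMm : M = ∑ i, (m i : ℤ))
    (hM : r * (d : ℤ) ^ 2 ≤ M ^ 2) (h3 : 3 * (d : ℤ) < M) :
    ∃ p : Fin r → Fin 2 → HahnSeries ℤ KK, No d m p := by
  classical
  have hd' : (1 : ℤ) ≤ d := by exact_mod_cast hd
  obtain ⟨D, θ, hD, hkey⟩ := key (N := 3 * d * (d + 1)) (by positivity)
    (3 * d * (d + 1) - M * (d + 1) + 1)
  have hDd : D ^ d ≠ 0 := pow_ne_zero _ hD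
  obtain ⟨u, hu, hE⟩ := exists_pts r (HahnSeries.coeff_order_eq_zero.not.2 hDd)
  let ε : Fin r → HahnSeries ℤ BB →+* HahnSeries ℤ KK := fun i => hmap (hmap (evS (u i)))
  have hε : ∀ i l, ε i (kap l) = l := fun i l => by
    ext a e
    simp [ε, kap, ii, kk, evS, ev]
  obtain ⟨z, hz⟩ : ∃ z, z = psi (Polynomial.C (θ 0) + Polynomial.X) := ⟨_, rfl⟩
  obtain ⟨x, hx⟩ : ∃ x : Fin 2 → _, x = fun j => psi (Polynomial.C (θ j.succ)) := ⟨_, rfl⟩
  have hz0 : ∀ i, ε i z ≠ 0 := fun i h => by
    have := congrArg (fun f : HahnSeries ℤ KK => (f.coeff 1).coeff 0) h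
    simp [ε, hz, psi, evS] at this
  refine ⟨fun i j => ε i (x j) / ε i z, fun f hf hv => ?_⟩
  rcases Nat.eq_zero_or_pos r with rfl | hr
  · simp at hMm; omega
  have hmem : ∀ i, hev kap d f z x ∈ RingHom.ker (ε i) ^ m i := fun i =>
    hev_mem kap _ hf (hv i) (fun h => hz0 i (by rw [h, map_zero])) fun j => by
      rw [RingHom.mem_ker, map_sub, map_mul, hε, div_mul_cancel₀ _ (hz0 i), sub_self]
  let ex : (Fin 2 →₀ ℕ) → Fin 3 →₀ ℕ := fun α =>
    Finsupp.equivFunOnFinite.symm ![d - (α 0 + α 1), α 0, α 1]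
  have hex : Function.Injective ex := fun α β h => by
    have h1 := DFunLike.congr_fun h 1
    have h2 := DFunLike.congr_fun h 2
    ext i
    fin_cases i
    exacts [h1, h2]
  let F : ℤ → MvPolynomial (Fin 3) KK := fun a =>
    ∑ α ∈ f.support, monomial (ex α) ((coeff α f).coeff a)
  have hF : ∀ a, (F a).IsHomogeneous d := fun a => IsHomogeneous.sum _ _ _ fun α hα =>
    isHomogeneous_monomial _ (by
      rw [Finsupp.degree_eq_sum, Fin.sum_univ_three]
      have := deg_le hf hα
      change d - (α 0 + α 1) + α 0 + α 1 = d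
      omega)
  obtain ⟨n, hn⟩ : ∃ n, ∀ α ∈ f.support, (PP kk θ (monomial (ex α) 1)).natDegree < n :=
    ⟨f.support.sup (fun α => (PP kk θ (monomial (ex α) 1)).natDegree) + 1, fun α hα =>
      Nat.lt_succ_of_le (Finset.le_sup (f := fun α => (PP kk θ (monomial (ex α) 1)).natDegree) hα)⟩
  have hQ : ∀ a b, (PP kk θ (F a)).coeff b = ∑ α ∈ f.support,
      kk ((coeff α f).coeff a) * (PP kk θ (monomial (ex α) 1)).coeff b := fun a b => by
    rw [map_sum, Polynomial.finsetSum_coeff]
    refine Finset.sum_congr rfl fun α _ => ?_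
    rw [← Polynomial.coeff_C_mul, ← mul_one ((coeff α f).coeff a), ← C_mul_monomial, map_mul, mul_one]
    congr 2
    exact eval₂Hom_C _ _ _
  have hH : ∀ μ, (hev kap d f z x).coeff μ = ysum n fun b => (PP kk θ (F (μ - b))).coeff b := by
    intro μ
    simp only [hQ, ysum, map_sum, Finset.mul_sum]
    rw [Finset.sum_comm, hev, HahnSeries.coeff_sum]
    refine Finset.sum_congr rfl fun α hα => ?_
    refine Eq.trans ?_ (psi_coeff (coeff α f) _ (hn α hα) μ)
    congr 2
    rw [PP, eval₂Hom_monomial, RingHom.map_one, one_mul, Finsupp.prod_fintype _ _ (by simp),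
      Fin.prod_univ_three, map_mul, map_mul, map_pow, map_pow, map_pow, hz, hx]
    rfl
  have hlow : ∀ μ, (hev kap d f z x).coeff μ = 0 → ∀ b : ℕ, (PP kk θ (F (μ - b))).coeff b = 0 := by
    intro μ h b
    rcases lt_or_ge b n with hb | hb
    · ext1; funext e
      have := ysum_coeff n (fun b => (PP kk θ (F (μ - b))).coeff b) e b
      rw [← hH, h, if_pos hb] at this
      exact this.symm
    · rw [hQ]
      exact Finset.sum_eq_zero fun α hα => by
        rw [Polynomial.coeff_eq_zero_of_natDegree_lt ((hn α hα).trans_le hb), mul_zero]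
  by_cases h0 : hev kap d f z x = 0
  · by_contra hf0
    obtain ⟨α, hα⟩ := support_nonempty.2 hf0
    refine mem_support_iff.1 hα ?_
    ext1; funext a
    have h1 : F a = 0 := (hkey d _ (hF a)).1 (Polynomial.ext fun b => by
      simpa using hlow (a + b) (by rw [h0]; rfl) b)
    have := congrArg (coeff (ex α)) h1
    rwa [coeff_sum, Finset.sum_eq_single α (fun q _ hq => by
      rw [coeff_monomial, if_neg (hex.ne hq)]) (fun h => absurd hα h), coeff_monomial,
      if_pos rfl] at this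
  exfalso
  obtain ⟨μ, hμ⟩ : ∃ μ, μ = (hev kap d f z x).order := ⟨_, rfl⟩
  choose g hg1 hg2 hg3 using fun b : ℕ => (hkey d _ (hF (μ - b))).2 b fun b' hb' => by
    simpa using hlow (μ - b + b') (HahnSeries.coeff_eq_zero_of_lt_order (by omega)) b'
  have hG : (hev kap d f z x).coeff μ = ii (D ^ d) * ysum n g := by
    simp only [hH, hg1, ysum, Finset.mul_sum, map_mul]
    exact Finset.sum_congr rfl fun b _ => mul_left_comm _ _ _
  have hG0 : ysum n g ≠ 0 := fun h => HahnSeries.coeff_order_eq_zero.not.2 h0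
    (by rw [← hμ, hG, h, mul_zero])
  refine HahnSeries.coeff_order_eq_zero.not.2 hG0
    (comb m u hu _ hE hd hMm hM h3 _ (fun b k hk => ?_) fun i => ?_)
  · rw [ysum_coeff] at hk
    have hb : b < n := by by_contra hb; simp [hb] at hk
    rw [if_pos hb] at hk
    have hb3 : 3 * b ≤ d := by
      by_contra hc
      rw [hg3 b (by omega)] at hk
      exact hk rfl
    obtain ⟨w1, w2⟩ := window (hg2 b) (fun e he => by
      have := ysum_coeff n g e b
      rw [HahnSeries.coeff_eq_zero_of_lt_order he, if_pos hb] at this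
      exact this.symm) hk
    have e : ((d - 3 * b : ℕ) : ℤ) = d - 3 * b := by omega
    rw [e] at w1 w2
    obtain ⟨w3, w4⟩ := win_arith hd' (by omega) (by omega) w1 w2
    exact ⟨by omega, w3, w4.imp_right fun h => ⟨h.1, by omega⟩⟩
  · have h1 := hmem i
    rw [ker_hmap, ker_hmap] at h1
    have h2 := mem_hI.1 (mem_hI.1 (hI_mono (hI_pow _ _) (hI_pow _ _ h1)) μ)
      ((D ^ d).order + (ysum n g).order)
    rwa [hG, coeff_mul_low (fun e he => by
      simp only [ii, hmap_coeff, HahnSeries.coeff_eq_zero_of_lt_order he, map_zero])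
      fun e he => HahnSeries.coeff_eq_zero_of_lt_order he] at h2

end Crest.Agent.R259
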