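import Crest.Agent.R259.Hahn

/-! Row 259 (Nagata): theta series of level one and their independence modulo `t`. -/

set_option autoImplicit false

namespace Crest.Agent.R259

open LaurentPolynomial

/-- exponent of `q` at `x^n` -/
def Q (n : ℤ) : ℤ := (n ^ 2 - 3 * n + 2) / 6

lemma Q_add (n : ℤ) : Q (n + 3) = Q n + n := by
  rw [Q, Q, show (n + 3) ^ 2 - 3 * (n + 3) + 2 = n ^ 2 - 3 * n + 2 + n * 6 by ring,
    Int.add_mul_ediv_right _ _ (by norm_num)]

lemma Q_low (n : ℤ) : n ^ 2 - 3 * n - 3 ≤ 6 * Q n := by unfold Q; omega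

lemma Q_nonneg (n : ℤ) : 0 ≤ Q n := by
  have : 0 ≤ n ^ 2 - 3 * n + 2 := by
    rcases le_or_gt n 1 with h | h <;> nlinarith
  unfold Q; omega

lemma Q_zero {n : ℤ} : Q n = 0 ↔ 0 ≤ n ∧ n ≤ 3 := by
  constructor
  · intro h
    have := Q_low n
    constructor <;> nlinarith
  · rintro ⟨h1, h2⟩
    interval_cases n <;> rfl

lemma fin_sub {N : ℤ} (hN : 0 < N) (a E : ℤ) : {n : ℤ | N * Q n + a * n ≤ E}.Finite := by
  refine (Set.finite_Icc (-(6 * |E| + 6 * |a| + 6)) (6 * |E| + 6 * |a| + 6)).subset fun n hn => ?_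
  have h1 : Q n ≤ N * Q n := le_mul_of_one_le_left (Q_nonneg n) hN
  have h2 := Q_low n
  have h3 : -(|a| * |n|) ≤ a * n := by rw [← abs_mul]; exact neg_abs_le _
  have h4 : n ^ 2 = |n| * |n| := by rw [abs_mul_abs_self, sq]
  have h5 := le_abs_self E
  have h6 := le_abs_self n
  have h7 := abs_nonneg E
  have h8 := abs_nonneg a
  simp only [Set.mem_ofPred_eq] at hn
  rw [Set.mem_Icc, ← abs_le]
  by_contra hc
  rw [not_le] at hc
  nlinarith

lemma exists_th {N : ℤ} (hN : 0 < N) (a i : ℤ) :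
    ∃ f : AA, ∀ e n, arr f e n = if n % 3 = i ∧ e = N * Q n + a * n then 1 else 0 := by
  have hf : ∀ e : ℤ, (Function.support fun n : ℤ =>
      if n % 3 = i ∧ e = N * Q n + a * n then (1 : ℂ) else 0).Finite := fun e =>
    (fin_sub hN a e).subset fun n hn => by
      have : n % 3 = i ∧ e = N * Q n + a * n := by by_contra h; exact hn (if_neg h)
      exact this.2.ge
  refine ⟨HahnSeries.ofSuppBddBelow (fun e => .ofCoeff (Finsupp.ofSupportFinite _ (hf e))) ?_,
    fun e n => rfl⟩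
  obtain ⟨B, hB⟩ := ((fin_sub hN a 0).image fun n => N * Q n + a * n).bddBelow
  refine ⟨min B 0, fun e he => ?_⟩
  by_contra hc
  refine he (LaurentPolynomial.ext fun n => ?_)
  change (if n % 3 = i ∧ e = N * Q n + a * n then (1 : ℂ) else 0) = 0
  refine if_neg fun h => hc ?_
  rcases le_total e 0 with h0 | h0
  · exact (min_le_left _ _).trans (hB ⟨n, h.2.ge.trans h0, h.2.symm⟩)
  · exact (min_le_right _ _).trans h0

variable {N : ℤ} (hN : 0 < N)

/-- `θ_i(t^a u)` with `q = t^N` -/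
noncomputable def th (a i : ℤ) : AA := (exists_th hN a i).choose

lemma arr_th (a i e n : ℤ) :
    arr (th hN a i) e n = if n % 3 = i ∧ e = N * Q n + a * n then 1 else 0 :=
  (exists_th hN a i).choose_spec e n

lemma th_theta (a i : ℤ) : Rel N (3 * a) 3 (th hN a i) (th hN a i) := fun e n => by
  rw [arr_th, arr_th, Q_add]
  refine if_congr (and_congr (by omega) ?_) rfl rfl
  constructor <;> intro h <;> linarith

lemma th_transfer (a i : ℤ) : Rel a 0 0 (th hN 0 i) (th hN a i) := fun e n => by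
  rw [arr_th, arr_th, add_zero, add_zero]
  refine if_congr (and_congr Iff.rfl ?_) rfl rfl
  constructor <;> intro h <;> linarith

/-- the coordinates `T, Y, W` -/
noncomputable def Th (a : ℤ) : Fin 3 → AA :=
  ![th hN a 0 + (th hN a 1 + th hN a 1 + th hN a 1) + (th hN a 2 + th hN a 2 + th hN a 2),
    th hN a 1 + th hN a 2, th hN a 1]

lemma Th_theta (a : ℤ) (i : Fin 3) : Rel N (3 * a) 3 (Th hN a i) (Th hN a i) := by
  have h := th_theta hN a
  fin_cases i
  · exact ((h 0).add (((h 1).add (h 1)).add (h 1))).add (((h 2).add (h 2)).add (h 2))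
  · exact (h 1).add (h 2)
  · exact h 1

lemma Th_transfer (a : ℤ) (i : Fin 3) : Rel a 0 0 (Th hN 0 i) (Th hN a i) := by
  have h := th_transfer hN a
  fin_cases i
  · exact ((h 0).add (((h 1).add (h 1)).add (h 1))).add (((h 2).add (h 2)).add (h 2))
  · exact (h 1).add (h 2)
  · exact h 1

/-- power series with constant term `p` -/
def Low (f : AA) (p : LP) : Prop := (∀ e < 0, f.coeff e = 0) ∧ f.coeff 0 = p

lemma Low.add {f g : AA} {p q : LP} (h : Low f p) (h' : Low g q) : Low (f + g) (p + q) :=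
  ⟨fun e he => by simp [h.1 e he, h'.1 e he], by simp [h.2, h'.2]⟩

lemma Low.mul {f g : AA} {p q : LP} (h : Low f p) (h' : Low g q) : Low (f * g) (p * q) :=
  ⟨by simpa using coeff_mul_lt h.1 h'.1, by simpa [h.2, h'.2] using coeff_mul_low h.1 h'.1⟩

lemma Low.pow {f : AA} {p : LP} (h : Low f p) (k : ℕ) : Low (f ^ k) (p ^ k) := by
  induction k with
  | zero => exact ⟨fun e he => by simp [HahnSeries.coeff_one, he.ne], by simp⟩
  | succ k ih => simpa [pow_succ] using ih.mul h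

lemma th_low (i : ℤ) (p : LP) (hp : ∀ n, p.coeff n = if n % 3 = i ∧ 0 ≤ n ∧ n ≤ 3 then 1 else 0) :
    Low (th hN 0 i) p := by
  refine ⟨fun e he => LaurentPolynomial.ext fun n => ?_, LaurentPolynomial.ext fun n => ?_⟩
  · refine (arr_th hN 0 i e n).trans (if_neg fun h => ?_)
    nlinarith [h.2, Q_nonneg n]
  · refine (arr_th hN 0 i 0 n).trans ?_
    rw [hp]
    refine if_congr (and_congr Iff.rfl ?_) rfl rfl
    simp [hN.ne', Q_zero]

lemma Th_low : Low (Th hN 0 0) ((1 + T 1) ^ 3) ∧ Low (Th hN 0 1) (T 1 * (1 + T 1)) ∧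
    Low (Th hN 0 2) (T 1) := by
  have h0 := th_low hN 0 (T 0 + T 3) fun n => by
    simp only [AddMonoidAlgebra.coeff_add, Finsupp.add_apply, T_apply]
    split_ifs <;> first | omega | simp
  have h1 := th_low hN 1 (T 1) fun n => by
    simp only [T_apply]
    split_ifs <;> first | omega | simp
  have h2 := th_low hN 2 (T 2) fun n => by
    simp only [T_apply]
    split_ifs <;> first | omega | simp
  have e2 : (T 2 : LP) = T 1 ^ 2 := by rw [T_pow]; rfl
  have e3 : (T 3 : LP) = T 1 ^ 3 := by rw [T_pow]; rfl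
  refine ⟨?_, ?_, h1⟩
  · convert (h0.add ((h1.add h1).add h1)).add ((h2.add h2).add h2) using 1
    · rfl
    · rw [e2, e3, T_zero]; ring
  · convert h1.add h2 using 1
    · rfl
    · rw [e2]; ring

lemma indep_LP {ι : Type*} (s : Finset ι) (k : ι → ℂ) (ν μ : ι → ℕ) (hν : Set.InjOn ν s)
    (h : ∑ i ∈ s, (C (k i) * ((1 + T 1) ^ ν i * T 1 ^ μ i) : LP) = 0) : ∀ i ∈ s, k i = 0 := by
  classical
  by_contra hc
  push Not at hc
  obtain ⟨i, hi, hmin⟩ := (s.filter fun i => k i ≠ 0).exists_min_image ν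
    (by obtain ⟨i, hi, h⟩ := hc; exact ⟨i, by simp [hi, h]⟩)
  rw [Finset.mem_filter] at hi
  have e : ∑ j ∈ s, (C (k j) * ((1 + T 1) ^ ν j * T 1 ^ μ j) : LP) =
      (1 + T 1) ^ ν i * ∑ j ∈ s, C (k j) * ((1 + T 1) ^ (ν j - ν i) * T 1 ^ μ j) := by
    rw [Finset.mul_sum]
    refine Finset.sum_congr rfl fun j hj => ?_
    by_cases h0 : k j = 0
    · simp [h0]
    · obtain ⟨w, hw⟩ := Nat.exists_eq_add_of_le (hmin j (by simp [hj, h0]))
      rw [hw, Nat.add_sub_cancel_left]; ring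
  have hv : (1 + T 1 : LP) ≠ 0 := fun h0 => by
    simpa using congrArg (eval₂ (RingHom.id ℂ) (1 : ℂˣ)) h0
  rw [e] at h
  have h2 := congrArg (eval₂ (RingHom.id ℂ) (-1 : ℂˣ))
    ((mul_eq_zero.1 h).resolve_left (pow_ne_zero _ hv))
  rw [map_sum, Finset.sum_eq_single i (fun j hj hji => ?_) (fun h => absurd hi.1 h)] at h2
  · simp [hi.2] at h2
  · by_cases h0 : k j = 0
    · simp [h0]
    · have := hmin j (by simp [hj, h0])
      have h3 : ν j - ν i ≠ 0 := fun h4 => hji (hν hj hi.1 (by omega))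
      simp [h3]

open MvPolynomial in
lemma indep {F : MvPolynomial (Fin 3) KK} (hν : Set.InjOn (fun α : Fin 3 →₀ ℕ => 3 * α 0 + α 1) F.support)
    (h : eval₂Hom kk (Th hN 0) F = 0) : F = 0 := by
  by_contra hF
  obtain ⟨α, hα, hmin⟩ := F.support.exists_min_image (fun α => (coeff α F).order)
    (support_nonempty.2 hF)
  obtain ⟨h0, h1, h2⟩ := Th_low hN
  have h3 := congrArg (fun f : AA => f.coeff ((coeff α F).order + 0)) h
  simp only [coe_eval₂Hom, eval₂_eq', HahnSeries.coeff_sum, HahnSeries.coeff_zero] at h3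
  refine HahnSeries.coeff_order_eq_zero.not.2 (mem_support_iff.1 hα)
    (indep_LP F.support (fun β => (coeff β F).coeff (coeff α F).order) _ (fun β => β 1 + β 2) hν
      ?_ α hα)
  rw [← h3]
  refine Finset.sum_congr rfl fun β hβ => ?_
  have h4 := ((h0.pow (β 0)).mul (h1.pow (β 1))).mul (h2.pow (β 2))
  rw [Fin.prod_univ_three, coeff_mul_low _ h4.1, h4.2]
  · simp only [kk, hmap_coeff, ← pow_mul, mul_pow, pow_add]
    generalize (1 + T 1 : LP) = v
    ring
  · intro e he
    simp [kk, HahnSeries.coeff_eq_zero_of_lt_order (he.trans_le (hmin β hβ))]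

end Crest.Agent.R259
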